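import Crest.Agent.X212.Lk34.Pot
import Crest.Agent.X212.Lk34.Ode

/-!
# Row 212, LIX-KER part (C) (helper4): the form `e^{-Φ} θ` solves the twisted deformation equations
-/

set_option autoImplicit false
set_option linter.unusedSectionVars false
noncomputable section
open Set Function Filter Topology Complex
open scoped ContDiff Manifold

namespace Crest.Agent.X212.Ker4
open An Sob92 Wz78 Lns95 Lk34
open Met55 (VF)
open Line51 (fsm_re fsm_im)

variable {E H : Type} [NormedAddCommGroup E] [NormedSpace ℝ E] [FiniteDimensional ℝ E]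
  [MeasurableSpace E] [BorelSpace E] [TopologicalSpace H] {I : ModelWithCorners ℝ E H} {M : Type}
  [TopologicalSpace M] [ChartedSpace H M] [IsManifold I ∞ M] [I.Boundaryless] [MeasurableSpace M]
  [BorelSpace M] [SecondCountableTopology M] [T2Space M] {o : M → R208.F.Ext E} {N : Set M} {y : M}
  {ι lam : Type} [Fintype ι] [Fintype lam] {B : Base M ι lam} {G : Geo I M ι lam}
  {D : Dsc I o 4 N} {P : Prf 4} {h g Q Φ : ℝ → ℝ} {b b' : Bool}

variable (D Φ) in
/-- the radial factor -/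
def ph (y : M) : ℝ := Real.exp (-Φ (xx D y))

variable (D Φ) in
/-- the form `e^{-Φ} θ` -/
def tz (e : ι → VF I M) (b : Bool) (a : ι) (y : M) : ℂ := ph D Φ y * th D e b a y

variable (D g Q) in
/-- the potential -/
abbrev aa (e : ι → VF I M) : Bool → ι → M → ℝ :=
  pt D e (fun x => -2 * Real.exp (-2 * g x)) fun x => -Q x / 2

theorem tz_chg {e : ι → VF I M} (hy : y ∈ D.O b ∩ D.O b') (a : ι) :
    tz D Φ e b a y = tz D Φ e b' a y * gg D b b' y := by
  rw [tz, tz, mul_assoc, th_chg hy]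

theorem ext0 {T : Type} [TopologicalSpace T] [T2Space T] {f : M → T} {v : T} (hy : y ∈ D.O b)
    (c : ContinuousAt f y) (k : ∀ z ∈ D.O b, D.w b z ≠ 0 → f z = v) : f y = v :=
  tendsto_nhds_unique_of_frequently_eq c.tendsto tendsto_const_nhds
    (((D.ch b).dense hy).mono fun z hz => k z hz.1 hz.2)

theorem d1_re {e : ι → VF I M} {c : ι → ι → ι → M → ℝ} {θ : ι → M → ℂ} (s : ∀ a, SA I (θ a) y)
    (a k : ι) : (d1 I e c θ a k y).re = d1 I e c (fun a y => (θ a y).re) a k y := by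
  simp [d1, dv_re (s _)]

theorem d1_im {e : ι → VF I M} {c : ι → ι → ι → M → ℝ} {θ : ι → M → ℂ} (s : ∀ a, SA I (θ a) y)
    (a k : ι) : (d1 I e c θ a k y).im = d1 I e c (fun a y => (θ a y).im) a k y := by
  simp [d1, dv_im (s _)]

theorem d1_cg {e : ι → VF I M} {c : ι → ι → ι → M → ℝ} {α β : ι → M → ℝ}
    (s : ∀ a, α a =ᶠ[𝓝 y] β a) (a k : ι) : d1 I e c α a k y = d1 I e c β a k y := by
  simp only [d1, dv_congr (s _), fun a => (s a).self_of_nhds]

theorem sd_z {U : Fin 4 → ι → ℝ} (x : Ox B y U) {k : ι × ι → ℂ} {c : ℝ}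
    (h1 : ∀ s, (k s).re = c * (wq U 0 2 s.1 s.2 - wq U 3 1 s.1 s.2))
    (h2 : ∀ s, (k s).im = c * (wq U 0 3 s.1 s.2 - wq U 1 2 s.1 s.2)) (t : ι × ι) :
    ∑ s, B.sd y t s • k s = 0 := by
  have w := wq_wq x.toOn0
  refine Complex.ext ?_ ?_
  · simp only [re_sum, real_smul, re_ofReal_mul, h1, sd_sum x, zero_re]
    refine Finset.sum_eq_zero fun j _ => ?_
    fin_cases j <;> simp [sdb, add_mul, mul_sub, mul_left_comm _ c, Finset.sum_add_distrib,
      Finset.sum_sub_distrib, ← Finset.mul_sum, w]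
  · simp only [im_sum, real_smul, im_ofReal_mul, h2, sd_sum x, zero_im]
    refine Finset.sum_eq_zero fun j _ => ?_
    fin_cases j <;> simp [sdb, add_mul, mul_sub, mul_left_comm _ c, Finset.sum_add_distrib,
      Finset.sum_sub_distrib, ← Finset.mul_sum, w]

variable (m : Mo B G D P h) (r : Rf P h (xx D '' N) g Q Φ) (hy : y ∈ D.O b)
include hy

omit [T2Space M] in
theorem tz_re (a : ι) : (fun y => (tz D Φ G.F.e b a y).re) =ᶠ[𝓝 y]
    fun y => ph D Φ y * D.V P h G.F.e b 2 a y :=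
  ((D.ch b).op.eventually_mem hy).mono fun z hz => by simp only [tz, re_ofReal_mul, th_re hz P h]

omit [T2Space M] in
theorem tz_im (a : ι) : (fun y => (tz D Φ G.F.e b a y).im) =ᶠ[𝓝 y]
    fun y => ph D Φ y * D.V P h G.F.e b 3 a y :=
  ((D.ch b).op.eventually_mem hy).mono fun z hz => by simp only [tz, im_ofReal_mul, th_im hz P h]

include r in
theorem sa_ph : SA I (ph D Φ) y :=
  (r.sΦ _ ⟨y, D.sub b hy, rfl⟩).neg.exp.comp_contMDiffAt (f := xx D) (sa_xx hy)

include m r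

theorem sa_tz (a : ι) : SA I (tz D Φ G.F.e b a) y := by
  have F := gfrm m.hG
  have c : ∀ {f : M → ℝ}, SA I f y → SA I (fun y => (f y : ℂ)) y := fun k =>
    ofRealCLM.contDiff.contDiffAt.comp_contMDiffAt k
  refine ((c (SA.mul (sa_ph r hy) (sa_V2 F hy P h a))).add (SA.mul (g := fun _ => Complex.I)
    (c (SA.mul (sa_ph r hy) (sa_V3 F hy P h a))) contMDiffAt_const)).congr_of_eventuallyEq ?_
  filter_upwards [tz_re (Φ := Φ) (P := P) (h := h) (G := G) hy a,
    tz_im (Φ := Φ) (P := P) (h := h) (G := G) hy a] with z e1 e2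
  rw [← re_add_im (tz D Φ G.F.e b a z), e1, e2]
  rfl

theorem sa_aa (a : ι) : SA I (aa D g Q G.F.e b a) y :=
  sa_pt (gfrm m.hG) hy (contDiffAt_const.mul (contDiffAt_const.mul (r.sG _ (mem_R hy))).exp)
    ((r.sQ _ (mem_R hy)).neg.div_const 2) a

omit r in
theorem tz_pr (a : ι) : ∑ k, B.P a k y • tz D Φ G.F.e b k y = tz D Φ G.F.e b a y := by
  have F := gfrm m.hG
  refine Complex.ext ?_ ?_
  · simp only [re_sum, real_smul, re_ofReal_mul, tz, th_re hy P h, mul_left_comm (B.P a _ y),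
      ← Finset.mul_sum]
    exact congrArg _ (pr_wd F (fun y => sq1 (D.u b y)) (fun y => (D.u b y).re) a)
  · simp only [im_sum, real_smul, im_ofReal_mul, tz, th_im hy P h, mul_left_comm (B.P a _ y),
      ← Finset.mul_sum]
    exact congrArg _ (pr_wd F (fun y => sq1 (D.u b y)) (fun y => (D.u b y).im) a)

theorem tz_nrm : ∑ a, ‖tz D Φ G.F.e b a y‖ ^ 2 = 2 * Real.exp (-Φ (xx D y)) ^ 2 := by
  have c1 := fun a => (sa_tz m r hy a).continuousAt
  have c2 := (sa_ph r hy).continuousAt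
  refine sub_eq_zero.1 (ext0 (f := fun y => ∑ a, ‖tz D Φ G.F.e b a y‖ ^ 2 - 2 * ph D Φ y ^ 2) hy
    (by fun_prop) fun z hz h0 => ?_)
  have hon := (m.on0 hz h0).on
  simp only [nsq, tz, re_ofReal_mul, im_ofReal_mul, th_re hz P h, th_im hz P h, mul_pow,
    Finset.sum_add_distrib, ← Finset.mul_sum]
  simp only [sq, hon]
  simp; ring

section off
variable (h0 : D.w b y ≠ 0)
include h0

theorem dv_ph (a : ι) : dv I (G.F.e a) (ph D Φ) y = -((2 - 2 * Real.exp (-2 * g (‖D.w b y‖ ^ 2))) /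
    P.f (‖D.w b y‖ ^ 2) * ph D Φ y) * D.V P h G.F.e b 0 a y := by
  rw [dv_congr (v := fun y => Real.exp (-Φ (‖D.w b y‖ ^ 2))) ((xx_ev hy).mono fun z e => by
    simp only [ph, e]), dv_x (φ := fun x => Real.exp (-Φ x)) ((D.ch b).sw y hy)
      (r.dΦ _ (mem_R hy) (by simpa)).neg.exp, ph, xx_eq hy]
  simp only [Dsc.V, vG, Matrix.cons_val, Pi.neg_apply]
  ring

theorem aa_eq (a : ι) : aa D g Q G.F.e b a y = (2 - 2 * Real.exp (-2 * g (‖D.w b y‖ ^ 2))) /
    P.f (‖D.w b y‖ ^ 2) * D.V P h G.F.e b 1 a y - 2 * mu I G.F.e (D.u b) a y := by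
  have f0 := (m.pr b y hy h0).pf.ne'
  rw [aa, pt_eq hy (k := 1 / 2) h0 (by linarith [r.eQ _ (mem_R hy)])]
  simp only [Dsc.V, vG, Matrix.cons_val, sg1]
  field_simp
  push_cast
  ring

theorem dvg (i : Fin 4) : ∑ a, (dv I (G.F.e a) (D.V P h G.F.e b i a) y +
    G.F.dv a y * D.V P h G.F.e b i a y) = -∑ j, ∑ a, cn (D.V P h G.F.e b)
      (fun a y => 2 * mu I G.F.e (D.u b) a y) (fun y => P.f (‖D.w b y‖ ^ 2))
      (fun y => P.f1 (‖D.w b y‖ ^ 2)) i j a y * D.V P h G.F.e b j a y := by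
  have k := (glc m.hG).div_sum (gfrm m.hG) (g := G.F.dv) (x := y) (dv_gam m.hG.vol y)
    (T := fun k => D.V P h G.F.e b i k y) (on_PU (m.on0 hy h0) i)
  have e := fun a => (m.cz b).cv ⟨hy, h0⟩ (glc m.hG) (gfrm m.hG) (gsep m.hG) i a a
  simp only [cv0, smul_eq_mul] at e k
  rw [Finset.sum_comm, ← Finset.sum_neg_distrib, ← Finset.sum_congr rfl fun a _ => e a,
    Finset.sum_sub_distrib, k, Finset.sum_add_distrib, sub_neg_eq_add]

end off

theorem tz_c (t : ι × ι) : ∑ s, B.sd y t s • (d1 I G.F.e G.F.c (tz D Φ G.F.e b) s.1 s.2 y +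
    Complex.I * (aa D g Q G.F.e b s.1 y * tz D Φ G.F.e b s.2 y -
      aa D g Q G.F.e b s.2 y * tz D Φ G.F.e b s.1 y)) = 0 := by
  have F := gfrm m.hG
  have c1 := fun a => (sa_tz m r hy a).continuousAt
  have c2 := fun a => (sa_aa m r hy a).continuousAt
  have c3 := fun a k => (F.sD a (sa_tz m r hy k)).continuousAt
  have c4 := fun a k l => (F.sc a k l y).continuousAt
  have c5 := fun s t => (ct_sd m.hB s t).continuousAt (x := y)
  refine ext0 (f := fun y => ∑ s : ι × ι, B.sd y t s • (d1 I G.F.e G.F.c (tz D Φ G.F.e b) s.1 s.2 y +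
    Complex.I * (aa D g Q G.F.e b s.1 y * tz D Φ G.F.e b s.2 y -
      aa D g Q G.F.e b s.2 y * tz D Φ G.F.e b s.1 y))) hy (by unfold d1; fun_prop) fun z hz h0 => ?_
  have C := m.cz b
  refine sd_z (m.ox hz h0) (c := -((2 - 2 * Real.exp (-2 * g (‖D.w b z‖ ^ 2))) /
    P.f (‖D.w b z‖ ^ 2) * ph D Φ z)) (fun s => ?_) (fun s => ?_) t
  · rw [add_re, d1_re (sa_tz m r hz), d1_cg (tz_re (P := P) (h := h) hz),
      d1_mul (sa_ph r hz) (sa_V2 F hz P h), C.d2 z ⟨hz, h0⟩]
    simp only [I_mul_re, sub_im, im_ofReal_mul, tz, th_im hz P h, dv_ph m r hz h0, aa_eq m r hz h0, wq]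
    ring
  · rw [add_im, d1_im (sa_tz m r hz), d1_cg (tz_im (P := P) (h := h) hz),
      d1_mul (sa_ph r hz) (sa_V3 F hz P h), C.d3 z ⟨hz, h0⟩]
    simp only [I_mul_im, sub_re, re_ofReal_mul, tz, th_re hz P h, dv_ph m r hz h0, aa_eq m r hz h0, wq]
    ring

theorem tz_r : ∑ a, (G.F.D a (tz D Φ G.F.e b a) y + G.F.dv a y • tz D Φ G.F.e b a y +
    Complex.I * (aa D g Q G.F.e b a y * tz D Φ G.F.e b a y)) = 0 := by
  have F := gfrm m.hG
  have c1 := fun a => (sa_tz m r hy a).continuousAt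
  have c2 := fun a => (sa_aa m r hy a).continuousAt
  have c3 := fun a k => (F.sD a (sa_tz m r hy k)).continuousAt
  have c4 := fun a => (G.F.dv_sm a y).continuousAt
  refine ext0 (f := fun y => ∑ a, (dv I (G.F.e a) (tz D Φ G.F.e b a) y + G.F.dv a y • tz D Φ G.F.e b a y +
    Complex.I * (aa D g Q G.F.e b a y * tz D Φ G.F.e b a y))) hy (by fun_prop) fun z hz h0 => ?_
  have hon := (m.on0 hz h0).on
  have k := dvg m r hz h0
  refine Complex.ext ?_ ?_
  · have k := k 2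
    simp only [re_sum, add_re, ← dv_re (sa_tz m r hz _), dv_congr (tz_re (P := P) (h := h) hz _),
      dv_mul (sa_ph r hz) (sa_V2 F hz P h _)]
    simp only [real_smul, re_ofReal_mul, I_mul_re, im_ofReal_mul, tz,
      th_re hz P h, th_im hz P h, dv_ph m r hz h0, aa_eq m r hz h0, zero_re]
    simp only [Fin.sum_univ_four, cn, Matrix.cons_val, Finset.sum_add_distrib, add_mul, neg_mul,
      mul_assoc, Finset.sum_neg_distrib, ← Finset.mul_sum, hon] at k
    simp only [Finset.sum_add_distrib, sub_mul, neg_mul, mul_assoc, Finset.sum_neg_distrib,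
      mul_left_comm _ (ph D Φ z), Finset.sum_sub_distrib, ← Finset.mul_sum, hon]
    simp at k ⊢
    linear_combination ph D Φ z * k
  · have k := k 3
    simp only [im_sum, add_im, ← dv_im (sa_tz m r hz _), dv_congr (tz_im (P := P) (h := h) hz _),
      dv_mul (sa_ph r hz) (sa_V3 F hz P h _)]
    simp only [real_smul, re_ofReal_mul, I_mul_im, im_ofReal_mul, tz,
      th_re hz P h, th_im hz P h, dv_ph m r hz h0, aa_eq m r hz h0, zero_im]
    simp only [Fin.sum_univ_four, cn, Matrix.cons_val, Finset.sum_add_distrib, add_mul, neg_mul,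
      mul_assoc, Finset.sum_neg_distrib, ← Finset.mul_sum, hon] at k
    simp only [Finset.sum_add_distrib, sub_mul, neg_mul, mul_assoc, Finset.sum_neg_distrib,
      mul_left_comm _ (ph D Φ z), Finset.sum_sub_distrib, ← Finset.mul_sum, hon]
    simp at k ⊢
    linear_combination ph D Φ z * k

end Crest.Agent.X212.Ker4
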